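import Vale.Agent.P247.H74.Sta

/-!
# P247, package RP-FIN: elementary facts on `CForm`, `Data`, and the negated data
-/

open scoped ContDiff Topology
open Set Filter Metric

noncomputable section

namespace Vale.Agent.P247.H74.RPFIN

theorem val_self (a : CForm) (x u : R4) : a.val x u u = 0 := by
  simp [CForm.val, a.κ_self]

theorem val_add_left (a : CForm) (x u v w : R4) :
    a.val x (u + v) w = a.val x u w + a.val x v w := by
  simp [CForm.val]; ring

theorem val_add_right (a : CForm) (x u v w : R4) :
    a.val x u (v + w) = a.val x u v + a.val x u w := by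
  simp [CForm.val]; ring

theorem val_smul_left (a : CForm) (x : R4) (r : ℝ) (u w : R4) :
    a.val x (r • u) w = r * a.val x u w := by
  simp [CForm.val]; ring

theorem val_smul_right (a : CForm) (x : R4) (r : ℝ) (u w : R4) :
    a.val x u (r • w) = r * a.val x u w := by
  simp [CForm.val]; ring

theorem val_swap (a : CForm) (x u v : R4) : a.val x u v = - a.val x v u := by
  have h := val_self a x (u + v)
  rw [val_add_left, val_add_right, val_add_right, val_self, val_self] at h
  linarith

/-- smoothness of the value of a form along smooth maps -/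
theorem contDiff_val (a : CForm) {E : Type*} [NormedAddCommGroup E] [NormedSpace ℝ E]
    {x u v : E → R4} (hx : ContDiff ℝ ∞ x) (hu : ContDiff ℝ ∞ u) (hv : ContDiff ℝ ∞ v) :
    ContDiff ℝ ∞ fun p => a.val (x p) (u p) (v p) := by
  have h1 : ContDiff ℝ ∞ (fun y => fderiv ℝ a.lam y) :=
    a.lam_smooth.fderiv_right (m := ∞) (by simp)
  have h2 : ContDiff ℝ ∞ fun p => fderiv ℝ a.lam (x p) := h1.comp hx
  have h3 : ContDiff ℝ ∞ fun p => (fderiv ℝ a.lam (x p) (u p)) (v p) :=
    (h2.clm_apply hu).clm_apply hv
  have h4 : ContDiff ℝ ∞ fun p => (fderiv ℝ a.lam (x p) (v p)) (u p) :=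
    (h2.clm_apply hv).clm_apply hu
  have h5 : ContDiff ℝ ∞ fun p => a.κ (u p) (v p) :=
    ((a.κ.contDiff.comp hu)).clm_apply hv
  exact (h5.add h3).sub h4

/-- the value of a form is invariant under integer translations -/
theorem val_per (a : CForm) (n : Fin 4 → ℤ) (x u v : R4) :
    a.val (fun i => x i + n i) u v = a.val x u v := by
  have h : fderiv ℝ a.lam (fun i => x i + n i) = fderiv ℝ a.lam x := by
    have h1 : (fun y : R4 => a.lam (y + fun i => (n i : ℝ))) = a.lam := by
      funext y
      exact a.lam_per n y
    have h2 : fderiv ℝ (fun y : R4 => a.lam (y + fun i => (n i : ℝ))) x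
        = fderiv ℝ a.lam (x + fun i => (n i : ℝ)) := fderiv_comp_add_right _
    rw [h1] at h2
    exact h2.symm
  simp only [CForm.val, h]

/-- minus a form -/
def negC (a : CForm) : CForm where
  κ := -a.κ
  κ_self u := by simp [a.κ_self]
  lam := fun x => - a.lam x
  lam_smooth := a.lam_smooth.neg
  lam_per n x := by rw [a.lam_per]

theorem negC_val (a : CForm) (x u v : R4) : (negC a).val x u v = - a.val x u v := by
  have h : fderiv ℝ (fun x => - a.lam x) x = - fderiv ℝ a.lam x := fderiv_fun_neg
  simp only [CForm.val, negC, h]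
  simp
  ring

/-- the data with `J` replaced by `-J` -/
def negD (D : Data) : Data where
  J := fun x => - D.J x
  J_smooth := D.J_smooth.neg
  J_per n x := by rw [D.J_per]
  J_sq x u := by simp [D.J_sq]
  η := D.η
  om := negC D.om
  c := fun x j k => - D.c x j k
  c_smooth := D.c_smooth.neg
  c_per n x := by rw [D.c_per]
  η_J j x u v := by
    have h : (D.η j).val x u (-(D.J x v)) = - (D.η j).val x u (D.J x v) := by
      have := val_smul_right (D.η j) x (-1) u (D.J x v)
      simpa using this
    simp only [neg_apply]
    rw [h, D.η_J]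
    simp [Finset.sum_neg_distrib]
  nd x u v hu h := by
    obtain ⟨a, b, hab⟩ := D.nd x u v hu h
    exact ⟨a, -b, by simp [hab]⟩
  c_sq x j l := by
    rw [← D.c_sq x j l]
    refine Finset.sum_congr rfl fun k _ => ?_
    ring
  tame x u hu := by
    rw [negC_val]
    have h : D.om.val x u (-(D.J x u)) = - D.om.val x u (D.J x u) := by
      have := val_smul_right D.om x (-1) u (D.J x u)
      simpa using this
    simp only [neg_apply]
    rw [h]
    have := D.tame x u hu
    linarith
  cls := D.cls
  kne := D.kne

end Vale.Agent.P247.H74.RPFIN
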