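import Vale.Agent.P247.H74.RPFIN.Hom
import Vale.Agent.P247.H74.RPFIN.Data

/-!
# P247, package RP-FIN: conformal reparametrisation
-/

open scoped ContDiff Topology
open Set Filter Metric

noncomputable section

namespace Vale.Agent.P247.H74.RPFIN

/-! ## Elementary facts on periodic maps -/

theorem lin_smooth : ContDiff ℝ ∞ lin := by
  rw [contDiff_pi]
  intro i
  fin_cases i
  · exact contDiff_const
  · exact contDiff_const
  · exact contDiff_fst
  · exact contDiff_snd

/-- `lin` as a continuous linear map -/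
def linL : P2 →L[ℝ] R4 :=
  LinearMap.toContinuousLinearMap
    { toFun := lin
      map_add' := fun p q => by ext i; fin_cases i <;> simp [lin]
      map_smul' := fun r p => by ext i; fin_cases i <;> simp [lin] }

theorem linL_apply (p : P2) : linL p = lin p := rfl

theorem phi_smooth {f : P2 → R4} (hf : ContDiff ℝ ∞ f) : ContDiff ℝ ∞ (phi f) :=
  lin_smooth.add hf

theorem phi_shift {f : P2 → R4} (hf : Per f) (m n : ℤ) (p : P2) :
    phi f (p.1 + m, p.2 + n) = fun i => phi f p i + (![0, 0, m, n] : Fin 4 → ℤ) i := by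
  funext i
  simp only [phi, Pi.add_apply, hf m n p]
  fin_cases i <;> simp [lin] <;> ring

/-- derivative of a function which is periodic up to constants -/
theorem fderiv_shift {E : Type*} [NormedAddCommGroup E] [NormedSpace ℝ E] {g : P2 → E}
    {m n : ℤ} {v : E} (hg : ∀ p : P2, g (p.1 + m, p.2 + n) = g p + v) (p : P2) :
    fderiv ℝ g (p.1 + m, p.2 + n) = fderiv ℝ g p := by
  have h1 : (fun y : P2 => g (y + ((m : ℝ), (n : ℝ)))) = fun y => g y + v := by
    funext y
    exact hg y
  have h2 : fderiv ℝ (fun y : P2 => g (y + ((m : ℝ), (n : ℝ)))) p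
      = fderiv ℝ g (p + ((m : ℝ), (n : ℝ))) := fderiv_comp_add_right _
  rw [h1, fderiv_add_const] at h2
  exact h2.symm

theorem fderiv_per {E : Type*} [NormedAddCommGroup E] [NormedSpace ℝ E] {g : P2 → E}
    (hg : Per g) (m n : ℤ) (p : P2) :
    fderiv ℝ g (p.1 + m, p.2 + n) = fderiv ℝ g p :=
  fderiv_shift (v := 0) (fun p => by rw [hg m n p, add_zero]) p

theorem fderiv_phi_per {f : P2 → R4} (hf : Per f) (m n : ℤ) (p : P2) :
    fderiv ℝ (phi f) (p.1 + m, p.2 + n) = fderiv ℝ (phi f) p := by
  refine fderiv_shift (v := fun i => ((![0, 0, m, n] : Fin 4 → ℤ) i : ℝ)) (fun p => ?_) p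
  rw [phi_shift hf]
  rfl

theorem fderiv_split {E : Type*} [NormedAddCommGroup E] [NormedSpace ℝ E] (g : P2 → E)
    (p v : P2) : fderiv ℝ g p v = v.1 • ds g p + v.2 • dt g p := by
  have h : v = v.1 • ((1, 0) : P2) + v.2 • ((0, 1) : P2) := by ext <;> simp
  conv_lhs => rw [h]
  rw [map_add, map_smul, map_smul]
  rfl

theorem ds_smooth {E : Type*} [NormedAddCommGroup E] [NormedSpace ℝ E] {g : P2 → E}
    (hg : ContDiff ℝ ∞ g) : ContDiff ℝ ∞ (ds g) :=
  (hg.fderiv_right (m := ∞) (by simp)).clm_apply contDiff_const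

theorem dt_smooth {E : Type*} [NormedAddCommGroup E] [NormedSpace ℝ E] {g : P2 → E}
    (hg : ContDiff ℝ ∞ g) : ContDiff ℝ ∞ (dt g) :=
  (hg.fderiv_right (m := ∞) (by simp)).clm_apply contDiff_const

/-- a continuous periodic function is bounded -/
theorem per_bdd {E : Type*} [NormedAddCommGroup E] [NormedSpace ℝ E] {g : P2 → E}
    (hg : Continuous g) (hper : Per g) : ∃ C, ∀ p, ‖g p‖ ≤ C := by
  obtain ⟨C, hC⟩ := (isCompact_Icc (a := (0 : P2)) (b := 1)).exists_bound_of_continuousOn
    hg.continuousOn
  refine ⟨C, fun p => ?_⟩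
  have h := hper (-⌊p.1⌋) (-⌊p.2⌋) p
  rw [← h]
  apply hC
  have h1 := Int.floor_le p.1
  have h2 := Int.lt_floor_add_one p.1
  have h3 := Int.floor_le p.2
  have h4 := Int.lt_floor_add_one p.2
  constructor
  · constructor
    · simp; linarith
    · simp; linarith
  · constructor
    · simp; linarith
    · simp; linarith

/-! ## The complex coordinate change -/

/-- `coord τ` as a continuous real-linear map -/
def coordL (τ : ℂ) : ℂ →L[ℝ] P2 :=
  LinearMap.toContinuousLinearMap
    { toFun := coord τ
      map_add' := fun z w => by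
        ext
        · simp [coord]; ring
        · simp [coord]; ring
      map_smul' := fun r z => by
        ext
        · simp [coord]; ring
        · simp [coord]; ring }

theorem coordL_apply (τ z : ℂ) : coordL τ z = coord τ z := rfl

theorem coord_inj {τ : ℂ} (hτ : 0 < τ.im) {z : ℂ} (h : coord τ z = 0) : z = 0 := by
  have h1 : z.re - τ.re * (z.im / τ.im) = 0 := congrArg Prod.fst h
  have h2 : z.im / τ.im = 0 := congrArg Prod.snd h
  have h3 : z.im = 0 := by
    rcases div_eq_zero_iff.1 h2 with h | h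
    · exact h
    · exact absurd h hτ.ne'
  apply Complex.ext
  · rw [h2] at h1; simpa using h1
  · simpa using h3

theorem coord_one (τ : ℂ) : coord τ 1 = (1, 0) := by simp [coord]

theorem coord_tau {τ : ℂ} (hτ : 0 < τ.im) : coord τ τ = (0, 1) := by
  have h : τ.im / τ.im = 1 := div_self hτ.ne'
  simp [coord, h]

theorem coord_injective {τ : ℂ} (hτ : 0 < τ.im) {z w : ℂ} (h : coord τ z = coord τ w) :
    z = w := by
  have h1 : coordL τ (z - w) = 0 := by
    rw [map_sub, coordL_apply, coordL_apply, h, sub_self]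
  exact sub_eq_zero.1 (coord_inj hτ h1)

/-- the main step of the reparametrisation -/
theorem rp_pos (hU : U_statement) (D : Data) (f : P2 → R4) (hf : ContDiff ℝ ∞ f) (hper : Per f)
    (hinj : Inj f) (him : Imm f) (a b : P2 → ℝ) (ha : ContDiff ℝ ∞ a) (hb : ContDiff ℝ ∞ b)
    (hap : Per a) (hbp : Per b) (hpos : ∀ p, 0 < b p)
    (heq : ∀ p, dt (phi f) p = a p • ds (phi f) p + b p • D.J (phi f p) (ds (phi f) p)) :
    ∃ (f' : P2 → R4) (τ' : ℂ), JT D f' τ' ∧ Imm f' ∧ Inj f' := by
  -- uniformisation
  obtain ⟨τ, h, hτ, hh, hhp, hht, hne⟩ := hU (fun p => (a p : ℂ) + b p * Complex.I)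
    ((Complex.ofRealCLM.contDiff.comp ha).add
      ((Complex.ofRealCLM.contDiff.comp hb).mul contDiff_const))
    (fun m n p => by simp only [hap m n p, hbp m n p]) (fun p => by simpa using hpos p)
  set g : P2 → P2 := fun p => coord τ (h p) with hg
  have hgs : ContDiff ℝ ∞ g := (coordL τ).contDiff.comp hh
  have hgp : Per g := fun m n p => by simp only [hg, hhp m n p]
  obtain ⟨C, hC⟩ := per_bdd hgs.continuous hgp
  set G : P2 → P2 := fun p => p + g p with hG
  have hGs : ContDiff ℝ ∞ G := contDiff_id.add hgs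
  have hGp : ∀ (m n : ℤ) (p : P2), G (p.1 + m, p.2 + n) = ((G p).1 + m, (G p).2 + n) := by
    intro m n p
    simp only [hG, hgp m n p]
    ext
    · simp; ring
    · simp; ring
  -- the derivative of `G`
  have hDG : ∀ p v, fderiv ℝ G p v
      = coord τ (((v.1 : ℂ) + v.2 * ((a p : ℂ) + b p * Complex.I)) * (1 + ds h p)) := by
    intro p v
    have h1 : HasFDerivAt G (ContinuousLinearMap.id ℝ P2 + (coordL τ).comp (fderiv ℝ h p)) p := by
      refine (hasFDerivAt_id p).add ?_
      exact (coordL τ).hasFDerivAt.comp p (hh.differentiable (by simp) p).hasFDerivAt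
    rw [h1.fderiv]
    simp only [_root_.add_apply, ContinuousLinearMap.coe_id', id_eq,
      ContinuousLinearMap.comp_apply]
    rw [fderiv_split h p v]
    have h2 : v = coordL τ ((v.1 : ℂ) + v.2 * τ) := by
      have : (v.1 : ℂ) + v.2 * τ = v.1 • (1 : ℂ) + v.2 • τ := by
        simp
      rw [this, map_add, map_smul, map_smul, coordL_apply, coordL_apply, coord_one,
        coord_tau hτ]
      ext <;> simp
    conv_lhs => rw [h2]
    rw [← map_add, coordL_apply]
    congr 1
    have h3 : dt h p = ((a p : ℂ) + b p * Complex.I) * (1 + ds h p) - τ := by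
      rw [← hht p]; ring
    have h4 : ((v.1 : ℂ) + v.2 * τ + (v.1 • ds h p + v.2 • dt h p))
        = ((v.1 : ℂ) + v.2 * ((a p : ℂ) + b p * Complex.I)) * (1 + ds h p) := by
      rw [Complex.real_smul, Complex.real_smul, h3]; ring
    have h5 : (coordL τ ((v.1 : ℂ) + v.2 * τ)).1 = v.1 := by rw [← h2]
    have h6 : (coordL τ ((v.1 : ℂ) + v.2 * τ)).2 = v.2 := by rw [← h2]
    rw [h5, h6]
    exact h4
  have hDinj : ∀ p z, fderiv ℝ G p z = 0 → z = 0 := by
    intro p z hz
    rw [hDG] at hz
    have h1 := coord_inj hτ hz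
    have h2 : (z.1 : ℂ) + z.2 * ((a p : ℂ) + b p * Complex.I) = 0 := by
      rcases mul_eq_zero.1 h1 with h | h
      · exact h
      · exact absurd h (hne p)
    have h3 := congrArg Complex.im h2
    have h4 := congrArg Complex.re h2
    simp at h3 h4
    have h5 : z.2 = 0 := by
      rcases h3 with h | h
      · exact h
      · exact absurd h (hpos p).ne'
    rw [h5] at h4
    ext
    · simpa using h4
    · simpa using h5
  obtain ⟨H, hHs, hHG, hGH⟩ := exists_homeo hGs (C := C)
    (fun x => by simpa [hG] using hC x) hDinj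
  have hHp : ∀ (m n : ℤ) (q : P2), H (q.1 + m, q.2 + n) = ((H q).1 + m, (H q).2 + n) := by
    intro m n q
    have h1 := hGp m n (H q)
    rw [hGH q] at h1
    rw [← h1, hHG]
  -- the new map
  set f' : P2 → R4 := fun q => phi f (H q) - lin q with hf'
  have hphi : ∀ q, phi f' q = phi f (H q) := by
    intro q
    simp [phi, hf']
  have hphi' : phi f' = phi f ∘ H := funext hphi
  have hf's : ContDiff ℝ ∞ f' := ((phi_smooth hf).comp hHs).sub lin_smooth
  have hf'p : Per f' := by
    intro m n q
    simp only [hf']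
    rw [hHp m n q, phi_shift hper m n (H q)]
    funext i
    simp only [Pi.sub_apply]
    fin_cases i <;> simp [lin]
  -- derivatives of the new map
  have hDf : ∀ q v, fderiv ℝ (phi f') q v = fderiv ℝ (phi f) (H q) (fderiv ℝ H q v) := by
    intro q v
    rw [hphi', fderiv_comp q ((phi_smooth hf).differentiable (by simp) _)
      (hHs.differentiable (by simp) _)]
    rfl
  have hDH : ∀ q v, fderiv ℝ G (H q) (fderiv ℝ H q v) = v := by
    intro q v
    have h1 : (G ∘ H) = id := funext hGH
    have h2 : fderiv ℝ (G ∘ H) q v = v := by rw [h1]; simp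
    rw [fderiv_comp q (hGs.differentiable (by simp) _) (hHs.differentiable (by simp) _)] at h2
    exact h2
  -- complex numbers
  set W : P2 → P2 → ℂ := fun q v =>
    (((fderiv ℝ H q v).1 : ℂ) + (fderiv ℝ H q v).2 * ((a (H q) : ℂ) + b (H q) * Complex.I))
    with hW
  have hW1 : ∀ q, W q (1, 0) * (1 + ds h (H q)) = 1 := by
    intro q
    have h1 := hDH q (1, 0)
    rw [hDG] at h1
    exact coord_injective hτ (h1.trans (coord_one τ).symm)
  have hW2 : ∀ q, W q (0, 1) * (1 + ds h (H q)) = τ := by
    intro q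
    have h1 := hDH q (0, 1)
    rw [hDG] at h1
    exact coord_injective hτ (h1.trans (coord_tau hτ).symm)
  have hW3 : ∀ q, W q (0, 1) = τ * W q (1, 0) := by
    intro q
    have h1 : (W q (0, 1) - τ * W q (1, 0)) * (1 + ds h (H q)) = 0 := by
      rw [sub_mul, hW2, mul_assoc, hW1, mul_one, sub_self]
    rcases mul_eq_zero.1 h1 with h | h
    · exact sub_eq_zero.1 h
    · exact absurd h (hne _)
  have hcm : ∀ q v, fderiv ℝ (phi f') q v
      = cm D (phi f' q) (W q v) (ds (phi f) (H q)) := by
    intro q v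
    rw [hDf, fderiv_split, heq (H q), hphi q]
    simp only [cm, hW]
    simp only [Complex.add_re, Complex.ofReal_re, Complex.mul_re, Complex.ofReal_im,
      Complex.I_re, Complex.I_im, Complex.add_im, Complex.mul_im]
    module
  refine ⟨f', τ, ⟨hf's, hf'p, hτ, fun q => ?_⟩, fun q => ?_, ?_⟩
  · have h1 : dt (phi f') q = cm D (phi f' q) (W q (0, 1)) (ds (phi f) (H q)) := hcm q _
    have h2 : ds (phi f') q = cm D (phi f' q) (W q (1, 0)) (ds (phi f) (H q)) := hcm q _
    rw [h1, h2, hW3]
    simp only [cm, map_add, map_smul, D.J_sq, Complex.mul_re, Complex.mul_im]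
    module
  · have h2 : ds (phi f') q = cm D (phi f' q) (W q (1, 0)) (ds (phi f) (H q)) := hcm q _
    intro h0
    rw [h2] at h0
    set u := ds (phi f) (H q) with hu
    have hu0 : u ≠ 0 := him (H q)
    set w := W q (1, 0) with hw
    have hw0 : w ≠ 0 := by
      intro h
      have := hW1 q
      rw [← hw, h, zero_mul] at this
      exact zero_ne_one this
    -- multiply by the conjugate
    have h3 : (w.re ^ 2 + w.im ^ 2) • u = 0 := by
      have h4 : cm D (phi f' q) (starRingEnd ℂ w) (cm D (phi f' q) w u) = 0 := by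
        rw [h0]; simp [cm]
      simp only [cm, map_add, map_smul, D.J_sq, Complex.conj_re, Complex.conj_im] at h4
      rw [← h4]
      module
    rcases smul_eq_zero.1 h3 with h | h
    · apply hw0
      apply Complex.ext
      · simp only [Complex.zero_re]; nlinarith [sq_nonneg w.re, sq_nonneg w.im]
      · simp only [Complex.zero_im]; nlinarith [sq_nonneg w.re, sq_nonneg w.im]
    · exact hu0 h
  · intro q q' hqq
    rw [hphi, hphi] at hqq
    have := hinj hqq
    rw [← hGH q, ← hGH q', this]

theorem RP (hU : U_statement) : RP_statement := by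
  intro D f hf hper hind hinj hη
  have hφ := phi_smooth hf
  have hs : ContDiff ℝ ∞ (ds (phi f)) := ds_smooth hφ
  have ht : ContDiff ℝ ∞ (dt (phi f)) := dt_smooth hφ
  have him : Imm f := fun p => by
    have := (hind p).ne_zero 0
    simpa using this
  -- the coefficients
  have hex : ∀ p, ∃ x y : ℝ, dt (phi f) p = x • ds (phi f) p + y • D.J (phi f p) (ds (phi f) p) :=
    fun p => D.nd _ _ _ (him p) (fun j => hη j p)
  choose x y hxy using hex
  set t : P2 → ℝ := fun p => D.om.val (phi f p) (ds (phi f) p) (D.J (phi f p) (ds (phi f) p))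
    with ht'
  have htpos : ∀ p, 0 < t p := fun p => D.tame _ _ (him p)
  have hJs : ContDiff ℝ ∞ fun p => D.J (phi f p) (ds (phi f) p) :=
    (D.J_smooth.comp hφ).clm_apply hs
  have hts : ContDiff ℝ ∞ t := contDiff_val _ hφ hs hJs
  have hyt : ∀ p, y p = D.om.val (phi f p) (ds (phi f) p) (dt (phi f) p) / t p := by
    intro p
    rw [eq_div_iff (htpos p).ne', hxy p, val_add_right, val_smul_right, val_smul_right,
      val_self]
    simp only [ht']
    ring
  have hxt : ∀ p, x p
      = D.om.val (phi f p) (dt (phi f) p) (D.J (phi f p) (ds (phi f) p)) / t p := by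
    intro p
    rw [eq_div_iff (htpos p).ne', hxy p, val_add_left, val_smul_left, val_smul_left,
      val_self]
    simp only [ht']
    ring
  have hys : ContDiff ℝ ∞ y := by
    rw [show y = _ from funext hyt]
    exact (contDiff_val _ hφ hs ht).div hts (fun p => (htpos p).ne')
  have hxs : ContDiff ℝ ∞ x := by
    rw [show x = _ from funext hxt]
    exact (contDiff_val _ hφ ht hJs).div hts (fun p => (htpos p).ne')
  have hsp : Per (ds (phi f)) := fun m n p => by simp only [ds]; rw [fderiv_phi_per hper]
  have htp : Per (dt (phi f)) := fun m n p => by simp only [dt]; rw [fderiv_phi_per hper]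
  have htp' : Per t := by
    intro m n p
    simp only [ht']
    rw [hsp m n p, phi_shift hper m n p, val_per, D.J_per]
  have hyp : Per y := by
    intro m n p
    rw [hyt, hyt, htp' m n p, hsp m n p, htp m n p, phi_shift hper m n p, val_per]
  have hxp : Per x := by
    intro m n p
    rw [hxt, hxt, htp' m n p, hsp m n p, htp m n p, phi_shift hper m n p, val_per, D.J_per]
  have hy0 : ∀ p, y p ≠ 0 := by
    intro p h0
    have h1 := hxy p
    rw [h0, zero_smul, add_zero] at h1
    have h2 := LinearIndependent.pair_iff.1 (hind p) (x p) (-1) (by rw [h1]; module)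
    linarith [h2.2]
  -- the sign of `y`
  have hsign : (∀ p, 0 < y p) ∨ ∀ p, y p < 0 := by
    by_contra hcon
    push Not at hcon
    obtain ⟨⟨p, hp⟩, q, hq⟩ := hcon
    have hc : IsPreconnected (univ : Set P2) := isPreconnected_univ
    obtain ⟨r, -, hr⟩ := hc.intermediate_value (mem_univ p) (mem_univ q)
      hys.continuous.continuousOn ⟨hp, hq⟩
    exact hy0 r hr
  rcases hsign with hsg | hsg
  · obtain ⟨f', τ', h1, h2, h3⟩ := rp_pos hU D f hf hper hinj him x y hxs hys hxp hyp hsg hxy
    exact ⟨D, rfl, f', τ', h1, h2, h3⟩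
  · obtain ⟨f', τ', h1, h2, h3⟩ := rp_pos hU (negD D) f hf hper hinj him x (fun p => - y p)
      hxs hys.neg hxp (fun m n p => by simp only [hyp m n p])
      (fun p => by linarith [hsg p]) (fun p => by
        rw [hxy p]
        simp [negD])
    exact ⟨negD D, rfl, f', τ', h1, h2, h3⟩

end Vale.Agent.P247.H74.RPFIN
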