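import Vale.Agent.P247.H74.RPFIN.FIN
import Vale.Agent.P247.H74.L1.Main
import Vale.Agent.P247.H74.SP.Main
import Vale.Agent.P247.H74.WWIND.TW
import Vale.Agent.P247.H74.LA.Main
import Vale.Agent.P247.H74.K2A.K2A
import Vale.Agent.P247.H74.K2H.K2H
import Vale.Agent.P247.H74.K2D.K2
import Vale.Agent.P247.H515.K2B
import Vale.Agent.P247.H515.K2C
import Vale.Agent.P247.H94.P4
import Vale.Agent.P247.H94.DPsi
import Vale.Agent.P247.H663.S
import Vale.Agent.P247.H663.L2
import Vale.Agent.P247.H832.N
import Vale.Agent.P247.H832.INJ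
import Vale.Agent.P247.H690.K4.K4
import Vale.Agent.P247.H690.AEXT.Ext
import Vale.Agent.P247.H743.Mach
import Vale.Agent.P247.H332.K3.Loc
import Vale.Agent.P247.H447.Frame
import Vale.Agent.P247.H447.Reg
import Vale.Agent.P247.H350.Lin4
import Vale.Agent.P247.H383.K3FIN.Main
import Vale.Agent.P247.H720.H.All
import Vale.Agent.P247.H626.HEll
import Vale.Agent.P247.H137.All
import Vale.Agent.P247.H74.CE.GlobD
import Vale.Agent.P247.H74.CE.Om
import Vale.Agent.P247.H74.CE.Ld

/-!
# P247, assembly of the packages of stage 1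

The main result is `OneTorus : FIN_statement`, without hypotheses.
-/

namespace Vale.Agent.P247.H74.RPFIN

open Vale.Agent.P247.H74

theorem K3 : K3_statement := by
  obtain ⟨h1, h2, h3, h3c, h4, h5, h6, h7, h9, h12, h13⟩ := H720.wiener
  obtain ⟨W⟩ := H332.exists_WA h1 h2 h3 h3c h4 h5 h6 h7 H626.H8 h9 h12 h13
  exact H383.K3FIN W H447.frame H447.reg H350.LIN1 H350.LIN2 H350.LIN3 (H350.LIN4 H832.N) H332.LOC

theorem K2g : K2g_statement := K2H.K2g K2A.K2a (H515.K2b K2A.K2a) K2H.K2h

theorem K2 : K2_statement := K2D.K2 K2g (H515.K2c K2A.K2a K2g)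

theorem PB : PB_statement := K2A.PB K2g

theorem DPsi : DPsi_statement := H94.DPsi H350.LIN2 H350.LIN3 H832.N

theorem P6 : P6_statement := H94.P6 SP

theorem S : S_statement := H663.S L1 (H94.P5 SP) P6

theorem L2 : L2_statement := H663.L2 L1

theorem INJ0 : INJ0_statement := H832.INJ0 DPsi

theorem INJ1 : INJ1_statement := H832.INJ1 DPsi L1 L2 S

theorem SURJ : SURJ_statement := H743.SURJ PB DPsi

theorem EQ : EQ_statement := H743.EQ PB L1 L2 SURJ

/-- the last step, from the exclusion of cusps -/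
theorem FIN_of_CE (hCE : CE_statement) : FIN_statement :=
  have hK4 : K4_statement := H690.K4 L1 S hCE P6
  have hE : EXT_statement := H690.EXT K2 K3 hK4 DPsi
  have hG : GF_statement := H690.GF K3 hE INJ0 INJ1
  FIN LA (RP H137.U_all) (H743.MACH hG DPsi SURJ EQ)

/-- the last step, from the local part of the exclusion of cusps -/
theorem FIN_of_CEloc (hCE : CEloc_statement) : FIN_statement :=
  FIN_of_CE (CEG.CEglob OmProps hCE P6 WWIND.TW)

theorem CE : CE_statement := CEG.CEglob OmProps CEloc P6 WWIND.TW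

theorem K4 : K4_statement := H690.K4 L1 S CE P6

theorem EXT : EXT_statement := H690.EXT K2 K3 K4 DPsi

theorem GF : GF_statement := H690.GF K3 EXT INJ0 INJ1

theorem MACH : MACH_statement := H743.MACH GF DPsi SURJ EQ

/-- One torus suffices. -/
theorem OneTorus : FIN_statement := FIN LA (RP H137.U_all) MACH

end Vale.Agent.P247.H74.RPFIN
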