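import Vale.Agent.P247.H74.RPFIN.RP
import Vale.Agent.P247.Bdl.B1

/-!
# P247, package RP-FIN: from one embedded torus to the deformation
-/

open scoped ContDiff Topology
open Set Filter Metric

noncomputable section

namespace Vale.Agent.P247.H74.RPFIN

/-- The starting theorem: torus fibrations. -/
theorem torusFibration (w : Fin 3 → Stmt.Form 2) (hw : Stmt.Hypersymplectic w)
    (hn : Stmt.Normalized w) (f : Stmt.R4 → Stmt.R4) (hf : Stmt.TorusDiffeo f)
    (b c : Fin 3 → ℝ) (hbc : ∀ s t : ℝ, (∀ i, s * b i + t * c i = 0) → s = 0 ∧ t = 0)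
    (hb : ∀ x u v, Stmt.Vertical f x u → Stmt.Vertical f x v →
      ∑ i, b i * Stmt.val (w i) x u v = 0)
    (hc : ∀ x u v, Stmt.Vertical f x u → Stmt.Vertical f x v →
      ∑ i, c i * Stmt.val (w i) x u v = 0) :
    ∃ γ : ℝ → Fin 3 → Stmt.Form 2, Stmt.Deformation w γ ∧ Stmt.Hyperkahler (γ 1) :=
  Vale.Agent.P247.stmt_of_main
    (fun _ hw hn Φ _ _ hbc hb hc =>
      Vale.Agent.P247.main_of_taming Vale.Agent.P247.taming_holds hw hn Φ hbc hb hc)
    w hw hn f hf b c hbc hb hc

/-! ## Integral matrices -/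

/-- `Am A` as a continuous linear map -/
def AmL (A : Matrix (Fin 4) (Fin 4) ℤ) : R4 →L[ℝ] R4 :=
  LinearMap.toContinuousLinearMap (Matrix.mulVecLin (A.map (Int.cast : ℤ → ℝ)))

theorem AmL_apply (A : Matrix (Fin 4) (Fin 4) ℤ) (x : R4) : AmL A x = Am A x := rfl

theorem Am_mul (A B : Matrix (Fin 4) (Fin 4) ℤ) (x : R4) : Am (A * B) x = Am A (Am B x) := by
  simp only [Am, Matrix.mulVec_mulVec]
  congr 1
  ext i j
  simp [Matrix.mul_apply]

theorem Am_one (x : R4) : Am 1 x = x := by
  simp only [Am]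
  rw [Matrix.map_one (Int.cast : ℤ → ℝ) Int.cast_zero Int.cast_one, Matrix.one_mulVec]

/-- integer vectors -/
theorem Am_int (A : Matrix (Fin 4) (Fin 4) ℤ) (n : Fin 4 → ℤ) :
    Am A (fun i => (n i : ℝ)) = fun i => ((A.mulVec n i : ℤ) : ℝ) := by
  funext i
  simp [Am, Matrix.mulVec, dotProduct]

theorem Am_add (A : Matrix (Fin 4) (Fin 4) ℤ) (x y : R4) : Am A (x + y) = Am A x + Am A y :=
  map_add (AmL A) x y

theorem Am_shift (A : Matrix (Fin 4) (Fin 4) ℤ) (n : Fin 4 → ℤ) (x : R4) :
    Am A (fun i => x i + n i) = fun i => Am A x i + (A.mulVec n i : ℤ) := by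
  have h : (fun i => x i + (n i : ℝ)) = x + fun i => (n i : ℝ) := rfl
  rw [h, Am_add, Am_int]
  rfl

theorem FIN (hLA : LA_statement) (hRP : RP_statement) (hM : MACH_statement) : FIN_statement := by
  intro w hw hn b c hbc A hA i hi hi1 hi2 hid hinj hb hc
  -- the inverse matrix
  have hu : IsUnit A.det := by rw [hA]; exact isUnit_one
  set B : Matrix (Fin 4) (Fin 4) ℤ := A⁻¹ with hB
  have hAB : A * B = 1 := Matrix.mul_nonsing_inv A hu
  have hBA : B * A = 1 := Matrix.nonsing_inv_mul A hu
  have h1 : ∀ x, Am A (Am B x) = x := fun x => by rw [← Am_mul, hAB, Am_one]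
  have h2 : ∀ x, Am B (Am A x) = x := fun x => by rw [← Am_mul, hBA, Am_one]
  have hAinj : Function.Injective (Am A) := fun x y h => by rw [← h2 x, ← h2 y, h]
  have hBinj : Function.Injective (Am B) := fun x y h => by rw [← h1 x, ← h1 y, h]
  -- the periodic part
  set f : P2 → R4 := fun p => Am B (i p) - lin p with hf
  have hphi : phi f = fun p => Am B (i p) := by
    funext p
    simp [phi, hf]
  have hfs : ContDiff ℝ ∞ f := ((AmL B).contDiff.comp hi).sub lin_smooth
  -- columns
  have hcol : ∀ k : Fin 4, Am B (fun j => ((A j k : ℤ) : ℝ)) = e k := by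
    intro k
    have h3 : (fun j => ((A j k : ℤ) : ℝ)) = Am A (e k) := by
      funext j
      simp [Am, e]
    rw [h3, h2]
  have hsh : ∀ (m n : ℤ) (p : P2), i (p.1 + m, p.2 + n)
      = i p + (m : ℝ) • (fun j => ((A j 2 : ℤ) : ℝ)) + (n : ℝ) • (fun j => ((A j 3 : ℤ) : ℝ)) := by
    have key1 : ∀ (m : ℤ) (p : P2), i (p.1 + m, p.2)
        = i p + (m : ℝ) • (fun j => ((A j 2 : ℤ) : ℝ)) := by
      intro m
      induction m using Int.induction_on with
      | zero => intro p; simp
      | succ k ih =>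
        intro p
        have h4 := hi1 (p.1 + k) p.2
        have h5 := ih p
        have h6 : (p.1 + ((k : ℤ) + 1 : ℤ), p.2) = (p.1 + k + 1, p.2) := by
          ext <;> simp <;> ring
        rw [h6, h4]
        have h7 : i (p.1 + (k : ℝ), p.2) = i p + ((k : ℤ) : ℝ) • (fun j => ((A j 2 : ℤ) : ℝ)) := by
          simpa using h5
        funext j
        have h8 := congrFun h7 j
        simp at h8 ⊢
        rw [h8]; ring
      | pred k ih =>
        intro p
        have h4 := hi1 (p.1 + ((-(k : ℤ) - 1 : ℤ) : ℝ)) p.2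
        have h5 := ih p
        have h6 : (p.1 + ((-(k : ℤ) - 1 : ℤ) : ℝ) + 1, p.2) = (p.1 + ((-(k : ℤ) : ℤ) : ℝ), p.2) := by
          refine Prod.ext ?_ rfl
          push_cast
          ring
        rw [h6, h5] at h4
        funext j
        have h8 := congrFun h4 j
        simp at h8 ⊢
        linarith
    have key2 : ∀ (n : ℤ) (p : P2), i (p.1, p.2 + n)
        = i p + (n : ℝ) • (fun j => ((A j 3 : ℤ) : ℝ)) := by
      intro n
      induction n using Int.induction_on with
      | zero => intro p; simp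
      | succ k ih =>
        intro p
        have h4 := hi2 p.1 (p.2 + k)
        have h5 := ih p
        have h6 : (p.1, p.2 + ((k : ℤ) + 1 : ℤ)) = (p.1, p.2 + k + 1) := by
          ext <;> simp <;> ring
        rw [h6, h4]
        have h7 : i (p.1, p.2 + (k : ℝ)) = i p + ((k : ℤ) : ℝ) • (fun j => ((A j 3 : ℤ) : ℝ)) := by
          simpa using h5
        funext j
        have h8 := congrFun h7 j
        simp at h8 ⊢
        rw [h8]; ring
      | pred k ih =>
        intro p
        have h4 := hi2 p.1 (p.2 + ((-(k : ℤ) - 1 : ℤ) : ℝ))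
        have h5 := ih p
        have h6 : (p.1, p.2 + ((-(k : ℤ) - 1 : ℤ) : ℝ) + 1) = (p.1, p.2 + ((-(k : ℤ) : ℤ) : ℝ)) := by
          refine Prod.ext rfl ?_
          push_cast
          ring
        rw [h6, h5] at h4
        funext j
        have h8 := congrFun h4 j
        simp at h8 ⊢
        linarith
    intro m n p
    rw [key2 n (p.1 + m, p.2), key1 m p]
  have hfp : Per f := by
    intro m n p
    simp only [hf]
    rw [hsh m n p]
    have h3 : Am B (i p + (m : ℝ) • (fun j => ((A j 2 : ℤ) : ℝ))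
        + (n : ℝ) • (fun j => ((A j 3 : ℤ) : ℝ))) = Am B (i p) + (m : ℝ) • e 2 + (n : ℝ) • e 3 := by
      rw [← hcol 2, ← hcol 3]
      simp only [← AmL_apply, map_add, map_smul]
    rw [h3]
    funext j
    fin_cases j <;> simp [lin, e]
  have hDphi : ∀ p v, fderiv ℝ (phi f) p v = Am B (fderiv ℝ i p v) := by
    intro p v
    have h3 : HasFDerivAt (fun p => Am B (i p)) ((AmL B).comp (fderiv ℝ i p)) p :=
      (AmL B).hasFDerivAt.comp p (hi.differentiable (by simp) p).hasFDerivAt
    rw [hphi, h3.fderiv]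
    rfl
  have hds : ∀ p, Am A (ds (phi f) p) = fderiv ℝ i p (1, 0) := fun p => by
    simp only [ds]; rw [hDphi, h1]
  have hdt : ∀ p, Am A (dt (phi f) p) = fderiv ℝ i p (0, 1) := fun p => by
    simp only [dt]; rw [hDphi, h1]
  have hval : ∀ p, Am A (phi f p) = i p := fun p => by rw [hphi]; exact h1 _
  obtain ⟨D, hD0, hD1⟩ := hLA w hw b c hbc A hA f hfs hfp
    (fun p => by simpa only [comb, hds, hdt, hval] using hb p)
    (fun p => by simpa only [comb, hds, hdt, hval] using hc p)
  -- linear independence and injectivity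
  have hind : ∀ p, LinearIndependent ℝ ![ds (phi f) p, dt (phi f) p] := by
    intro p
    rw [LinearIndependent.pair_iff]
    intro s t hst
    have h3 : fderiv ℝ (phi f) p (s, t) = 0 := by rw [fderiv_split]; exact hst
    rw [hDphi] at h3
    have h4 : fderiv ℝ i p (s, t) = 0 := by
      apply hBinj
      rw [h3, ← AmL_apply, map_zero]
    have h5 : (s, t) = (0 : P2) := hid p (by rw [h4, map_zero])
    exact ⟨congrArg Prod.fst h5, congrArg Prod.snd h5⟩
  have hinj' : Inj f := by
    intro p q hpq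
    rw [hphi] at hpq
    exact hinj (hBinj hpq)
  obtain ⟨D', hη, f', τ', hJT, him, hinj''⟩ := hRP D f hfs hfp hind hinj' (by
    intro j p
    fin_cases j
    · change (D.η 0).val _ _ _ = 0
      rw [hD0]
      simpa only [comb, hds, hdt, hval] using hb p
    · change (D.η 1).val _ _ _ = 0
      rw [hD1]
      simpa only [comb, hds, hdt, hval] using hc p)
  obtain ⟨g, hgs, hgp, h, hhs, hgh, hhg, hvert⟩ := hM D' f' τ' hJT him hinj''
  -- the fibration
  set F : R4 → R4 := fun x => g (Am B x) with hF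
  have hhp : ∀ (n : Fin 4 → ℤ) x, h (fun i => x i + n i) = fun i => h x i + n i := by
    intro n x
    have h3 := hgp n (h x)
    rw [hgh] at h3
    rw [← h3, hhg]
  have hTD : Stmt.TorusDiffeo F := by
    refine ⟨⟨hgs.comp (AmL B).contDiff, fun n => ⟨B.mulVec n, fun x => ?_⟩⟩,
      fun x => Am A (h x), ⟨(AmL A).contDiff.comp hhs, fun n => ⟨A.mulVec n, fun x => ?_⟩⟩,
      fun x => ?_, fun x => ?_⟩
    · simp only [hF]
      rw [Am_shift, hgp]
    · simp only
      rw [hhp, Am_shift]
    · simp only [hF]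
      rw [hhg, h1]
    · simp only [hF]
      rw [h2, hgh]
  have hV : ∀ x u, Stmt.Vertical F x u → Stmt.Vertical g (Am B x) (Am B u) := by
    intro x u hu
    have h3 : lineDeriv ℝ F x u = lineDeriv ℝ g (Am B x) (Am B u) := by
      simp only [lineDeriv, hF]
      congr 1
      funext t
      rw [← AmL_apply, ← AmL_apply, ← AmL_apply, map_add, map_smul]
    simp only [Stmt.Vertical] at hu ⊢
    rw [← h3]
    exact hu
  refine torusFibration w hw hn F hTD b c hbc (fun x u v hu hv => ?_) (fun x u v hu hv => ?_)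
  · have h3 := hvert _ _ _ (hV x u hu) (hV x v hv) 0
    rw [hη, hD0] at h3
    simpa only [comb, h1] using h3
  · have h3 := hvert _ _ _ (hV x u hu) (hV x v hv) 1
    rw [hη, hD1] at h3
    simpa only [comb, h1] using h3

end Vale.Agent.P247.H74.RPFIN
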