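import Vale.Agent.P247.H74.Sta

/-!
# P247, package RP-FIN: maps of the plane at bounded distance from the identity

A smooth map `G` of a finite-dimensional space at bounded distance from the identity whose
derivative is injective everywhere is a diffeomorphism.
-/

open scoped ContDiff Topology
open Set Filter Metric

noncomputable section

namespace Vale.Agent.P247.H74.RPFIN

/-- Fibres of a proper local homeomorphism are finite. -/
theorem finite_fiber {W B : Type*} [TopologicalSpace W] [TopologicalSpace B] {f : W → B}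
    (hp : IsProperMap f) (hl : IsLocalHomeomorph f) (b : B) : (f ⁻¹' {b}).Finite := by
  have hc : IsCompact (f ⁻¹' {b}) :=
    (isProperMap_iff_isClosedMap_and_compact_fibers.1 hp).2.2 b
  refine hc.finite (IsDiscrete.of_openPartialHomeomorph f subset_rfl fun e _ => ?_)
  obtain ⟨φ, hφ, rfl⟩ := hl e
  exact ⟨φ, hφ, rfl⟩

/-- A proper local homeomorphism with Hausdorff source is a covering map. -/
theorem isCoveringMap_of_proper {W B : Type*} [TopologicalSpace W] [TopologicalSpace B]
    [T2Space W] {f : W → B} (hp : IsProperMap f)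
    (hl : IsLocalHomeomorph f) : IsCoveringMap f := by
  rw [isCoveringMap_iff_isCoveringMapOn_univ]
  refine (isProperMap_iff_isClosedMap_and_compact_fibers.1 hp).2.1
    |>.isCoveringMapOn_of_isLocalHomeomorphOn (fun b _ => finite_fiber hp hl b) ?_
  simpa [← isLocalHomeomorph_iff_isLocalHomeomorphOn_univ] using hl

theorem exists_equiv {W : Type} [NormedAddCommGroup W] [NormedSpace ℝ W]
    [FiniteDimensional ℝ W] (A : W →L[ℝ] W) (hinj : ∀ z, A z = 0 → z = 0) :
    ∃ L : W ≃L[ℝ] W, (L : W →L[ℝ] W) = A := by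
  have hinj' : Function.Injective (A : W →ₗ[ℝ] W) := by
    rw [← LinearMap.ker_eq_bot, LinearMap.ker_eq_bot']
    exact hinj
  refine ⟨(LinearEquiv.ofInjectiveEndo (A : W →ₗ[ℝ] W) hinj').toContinuousLinearEquiv, ?_⟩
  ext z; rfl

theorem isLocalHomeomorph_of_inj {W : Type} [NormedAddCommGroup W] [NormedSpace ℝ W]
    [FiniteDimensional ℝ W] {f : W → W} (hf : ContDiff ℝ ∞ f)
    (hinj : ∀ v z, fderiv ℝ f v z = 0 → z = 0) : IsLocalHomeomorph f := by
  have : CompleteSpace W := FiniteDimensional.complete ℝ W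
  apply IsLocalHomeomorph.mk
  intro v
  obtain ⟨L, hL⟩ := exists_equiv (fderiv ℝ f v) (hinj v)
  have hFd : HasFDerivAt f (L : W →L[ℝ] W) v := by
    rw [hL]; exact (hf.differentiable (by simp) v).hasFDerivAt
  have hcd : ContDiffAt ℝ 1 f v := (hf.of_le (by exact_mod_cast le_top)).contDiffAt
  exact ⟨hcd.toOpenPartialHomeomorph f hFd one_ne_zero,
    hcd.mem_toOpenPartialHomeomorph_source hFd one_ne_zero, fun z _ => rfl⟩

/-- a map at bounded distance from the identity is proper -/
theorem isProperMap_of_bdd {W : Type} [NormedAddCommGroup W] [NormedSpace ℝ W]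
    [FiniteDimensional ℝ W] {f : W → W} (hf : Continuous f) {C : ℝ}
    (hC : ∀ x, ‖f x - x‖ ≤ C) : IsProperMap f := by
  have : ProperSpace W := FiniteDimensional.proper ℝ W
  rw [isProperMap_iff_isCompact_preimage]
  refine ⟨hf, fun {K} hK => ?_⟩
  obtain ⟨R, hR⟩ := hK.isBounded.subset_closedBall (0 : W)
  refine (isCompact_closedBall (0 : W) (R + C)).of_isClosed_subset (hK.isClosed.preimage hf) ?_
  intro x hx
  have h1 : ‖f x‖ ≤ R := by simpa using hR hx
  have h2 : ‖x‖ ≤ ‖f x‖ + ‖f x - x‖ := by
    calc ‖x‖ = ‖f x - (f x - x)‖ := by congr 1; abel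
      _ ≤ _ := norm_sub_le _ _
  simp only [mem_closedBall, dist_zero_right]
  linarith [hC x]

/-- the global inverse -/
theorem exists_homeo {W : Type} [NormedAddCommGroup W] [NormedSpace ℝ W]
    [FiniteDimensional ℝ W] {G : W → W} (hG : ContDiff ℝ ∞ G) {C : ℝ}
    (hC : ∀ x, ‖G x - x‖ ≤ C) (hinj : ∀ v z, fderiv ℝ G v z = 0 → z = 0) :
    ∃ H : W → W, ContDiff ℝ ∞ H ∧ (∀ x, H (G x) = x) ∧ ∀ x, G (H x) = x := by
  have hl := isLocalHomeomorph_of_inj hG hinj
  have hp := isProperMap_of_bdd hG.continuous hC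
  have hcov := isCoveringMap_of_proper hp hl
  -- a section through the point `0`
  obtain ⟨σ, ⟨hσ0, hσ⟩, -⟩ := hcov.existsUnique_continuousMap_lifts
    (ContinuousMap.id W) (a₀ := G 0) (e₀ := (0 : W)) rfl
  have hσ' : ∀ x, G (σ x) = x := fun x => congrFun hσ x
  have hid : (σ ∘ G : W → W) = id := by
    refine hcov.eq_of_comp_eq (σ.continuous.comp hG.continuous) continuous_id ?_ 0 ?_
    · funext x
      simp [hσ']
    · simpa using hσ0
  have hleft : ∀ x, σ (G x) = x := fun x => congrFun hid x
  let e : W ≃ₜ W :=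
    { toFun := G
      invFun := σ
      left_inv := hleft
      right_inv := hσ'
      continuous_toFun := hG.continuous
      continuous_invFun := σ.continuous }
  choose L hL using fun v => exists_equiv (fderiv ℝ G v) (hinj v)
  have hsm : ContDiff ℝ ∞ (e.symm : W → W) := by
    refine e.contDiff_symm (f₀' := L) (fun a => ?_) hG
    rw [hL]
    exact (hG.differentiable (by simp) a).hasFDerivAt
  exact ⟨σ, hsm, hleft, hσ'⟩

end Vale.Agent.P247.H74.RPFIN
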